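import Vale.Agent.Lib.P356.helper23.Defs

/-!
An operator acting on the sites of A times an operator acting on the sites off A sends a basis
vector to a product vector across the cut.
-/

namespace Vale.Agent.Lib.P356.H71

open Matrix
open Vale.Agent.Lib.P356

/-- The glued configuration at a site of A. -/
theorem h71_glue_pos {Λ : Type*} [DecidableEq Λ] {q : ℕ} (A : Finset Λ)
    (a : {x // x ∈ A} → Fin q) (b : {x // x ∉ A} → Fin q)
    (x : Λ) (hx : x ∈ A) : glue A a b x = a ⟨x, hx⟩ := by
  show (if h : x ∈ A then a ⟨x, h⟩ else b ⟨x, h⟩) = a ⟨x, hx⟩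
  exact dif_pos hx

/-- The glued configuration at a site off A. -/
theorem h71_glue_neg {Λ : Type*} [DecidableEq Λ] {q : ℕ} (A : Finset Λ)
    (a : {x // x ∈ A} → Fin q) (b : {x // x ∉ A} → Fin q)
    (x : Λ) (hx : x ∉ A) : glue A a b x = b ⟨x, hx⟩ := by
  show (if h : x ∈ A then a ⟨x, h⟩ else b ⟨x, h⟩) = b ⟨x, hx⟩
  exact dif_neg hx

section

variable {Λ : Type*} [Fintype Λ] [DecidableEq Λ] {q : ℕ}

/-- An operator on A times an operator off A sends the basis vector of the configuration σ to a
product vector: the τ-coefficient of its image factors as a function of the restriction of τ to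
A times a function of the restriction of τ to the complement of A. -/
theorem prod_entry (A : Finset Λ) (TA TB : Matrix (Conf Λ q) (Conf Λ q) ℂ)
    (hA : SupportedOn A TA) (hB : SupportedOn Aᶜ TB) (σ : Conf Λ q) :
    ∃ (f : ({x // x ∈ A} → Fin q) → ℂ) (g : ({x // x ∉ A} → Fin q) → ℂ),
      ∀ τ : Conf Λ q, (TA * TB) τ σ = f (fun x => τ x.1) * g (fun x => τ x.1) := by
  refine ⟨fun a => TA (glue A a (fun x => σ x.1)) σ,
    fun b => TB (glue A (fun x => σ x.1) b) σ, fun τ => ?_⟩
  have hsum : (TA * TB) τ σ = TA τ (glue A (fun x => σ x.1) (fun x => τ x.1))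
      * TB (glue A (fun x => σ x.1) (fun x => τ x.1)) σ := by
    rw [Matrix.mul_apply]
    refine Finset.sum_eq_single (glue A (fun x => σ x.1) (fun x => τ x.1)) (fun κ _ hκ => ?_)
      (fun hnot => absurd (Finset.mem_univ _) hnot)
    obtain ⟨x, hx⟩ := Function.ne_iff.mp hκ
    by_cases hxA : x ∈ A
    · have hz : TB κ σ = 0 := by
        by_contra hne
        apply hx
        rw [h71_glue_pos A (fun x => σ x.1) (fun x => τ x.1) x hxA]
        exact hB.1 κ σ hne x (fun hc => (Finset.mem_compl.mp hc) hxA)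
      rw [hz, mul_zero]
    · have hz : TA τ κ = 0 := by
        by_contra hne
        apply hx
        rw [h71_glue_neg A (fun x => σ x.1) (fun x => τ x.1) x hxA]
        exact (hA.1 τ κ hne x hxA).symm
      rw [hz, zero_mul]
  have hTA : TA τ (glue A (fun x => σ x.1) (fun x => τ x.1))
      = TA (glue A (fun x => τ x.1) (fun x => σ x.1)) σ :=
    hA.2 τ (glue A (fun x => σ x.1) (fun x => τ x.1))
      (glue A (fun x => τ x.1) (fun x => σ x.1)) σ
      (fun x hx => (h71_glue_pos A (fun x => τ x.1) (fun x => σ x.1) x hx).symm)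
      (fun x hx => h71_glue_pos A (fun x => σ x.1) (fun x => τ x.1) x hx)
      (fun x hx => (h71_glue_neg A (fun x => σ x.1) (fun x => τ x.1) x hx).symm)
      (fun x hx => h71_glue_neg A (fun x => τ x.1) (fun x => σ x.1) x hx)
  rw [hsum, hTA]

end

end Vale.Agent.Lib.P356.H71
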